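import Vale.Agent.P354CB.Ez

/-!
Every future timelike curve on a compact interval is part of one without future end point.
-/

open Set Filter Topology

namespace Vale.Agent.P354CB69

open Vale.Agent.P354n Vale.Agent.P354CB

variable {M : Spc}

/-- The future of a point contains another point. -/
theorem exists_ne (B : B0) (h : St M) (x : M.pt) : ∃ z, LL M x z ∧ z ≠ x := by
  obtain ⟨e, he⟩ := M.cover x
  have ht : co e x ∈ tgt e := (M.toE e).map_source he
  have hx : inv e (co e x) = x := (M.toE e).left_inv he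
  have tl := h.sp.timelike e _ ht
  have h0 : M.X e (co e x) ≠ 0 := fun k => by
    obtain ⟨L, l1, -, l2⟩ := h.sp.signature e _ ht
    rw [k, l2, l1.map_zero] at tl
    simp [mink, cu, cv, c1, c2] at tl
  have c : Tendsto (fun s : ℝ => co e x + s • M.X e (co e x)) (𝓝[>] 0) (𝓝 (co e x)) :=
    Tendsto.mono_left (Continuous.tendsto' (by fun_prop) _ _ (by simp)) nhdsWithin_le_nhds
  obtain ⟨s, ⟨⟨-, s1⟩, s2⟩, s3⟩ := (((B.ray h ht tl tl).and
    (c.eventually ((M.toE e).open_target.mem_nhds ht))).and self_mem_nhdsWithin).exists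
  refine ⟨_, hx ▸ s1, fun k => ?_⟩
  have := (M.toE e).symm.injOn s2 ht (k.trans hx.symm)
  rw [add_eq_left, smul_eq_zero] at this
  exact this.elim (ne_of_gt s3) h0

theorem extf (B : B0) (O : OPEN) (C : CHAIN) : EXTF := by
  intro M h sc a b u hab hu
  have := B.met M sc
  let _ := TopologicalSpace.metrizableSpaceMetric M.pt
  have hf : ∀ q : M.pt, ∃ p, LL M q p ∧ ∀ z, LL M q z → min 1 (dist q z) ≤ 2 * dist q p := by
    intro q
    obtain ⟨p0, k0, n0⟩ := exists_ne B h q
    have bd : BddAbove ((fun z => min 1 (dist q z)) '' {z | LL M q z}) :=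
      ⟨1, by rintro _ ⟨z, -, rfl⟩; exact min_le_left _ _⟩
    have ps : 0 < sSup ((fun z => min 1 (dist q z)) '' {z | LL M q z}) :=
      (lt_min one_pos (dist_pos.2 n0.symm)).trans_le (le_csSup bd ⟨p0, k0, rfl⟩)
    obtain ⟨_, ⟨p, k, rfl⟩, l⟩ := exists_lt_of_lt_csSup (⟨_, p0, k0, rfl⟩ :
      ((fun z => min 1 (dist q z)) '' {z | LL M q z}).Nonempty) (half_lt_self ps)
    refine ⟨p, k, fun z hz => ?_⟩
    have := le_csSup bd ⟨z, hz, rfl⟩
    have := min_le_right 1 (dist q p)
    linarith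
  choose f f1 f2 using hf
  obtain ⟨w, w1, w2, w3⟩ := C M h a b u (fun n => f^[n] (u b)) hab hu rfl fun n => by
    rw [Function.iterate_succ_apply']
    exact f1 _
  refine ⟨w, w1, w2, fun x _ hx => ?_⟩
  have t0 : Tendsto (fun n : ℕ => b + 1 - (1 / 2 : ℝ) ^ n) atTop (𝓝[<] (b + 1)) :=
    tendsto_nhdsWithin_iff.2 ⟨by
      simpa using (tendsto_pow_atTop_nhds_zero_of_lt_one (r := (1 / 2 : ℝ)) (by norm_num)
        (by norm_num)).const_sub (b + 1), .of_forall fun n =>
        mem_Iio.2 (sub_lt_self _ (pow_pos one_half_pos n))⟩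
  have tq : Tendsto (fun n : ℕ => f^[n] (u b)) atTop (𝓝 x) := (hx.comp t0).congr w3
  obtain ⟨z, k, n⟩ := exists_ne B h x
  have t1 : Tendsto (fun n : ℕ => min 1 (dist (f^[n] (u b)) z)) atTop (𝓝 (min 1 (dist x z))) :=
    tendsto_const_nhds.min (tq.dist tendsto_const_nhds)
  have t2 : Tendsto (fun n : ℕ => 2 * dist (f^[n] (u b)) (f^[n + 1] (u b))) atTop
      (𝓝 (2 * dist x x)) := (tq.dist (tq.comp (tendsto_add_atTop_nat 1))).const_mul 2
  have := le_of_tendsto_of_tendsto t1 t2 ((tq.eventually ((open_past B O h z).mem_nhds k)).mono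
    fun n l => by
      simp only [Function.iterate_succ_apply']
      exact f2 _ z l)
  rw [dist_self, mul_zero] at this
  exact (lt_min one_pos (dist_pos.2 n.symm)).not_ge this

end Vale.Agent.P354CB69
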